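import Mathlib

/-!
# P372: states, quantum operations, key-distillation protocols, word for word as in the problem

An operator on the Hilbert space with orthonormal basis indexed by the finite type `A` is a matrix
`Matrix A A ℂ`; tensor products are indexed by products of types. The systems of Alice, Bob and Eve
are ordered as `(A × B) × E`.
-/

open Matrix Filter Topology Kronecker
open scoped ComplexOrder MatrixOrder

namespace Vale.Agent.P372W

/-- A state (density operator). -/
def IsState {A : Type} [Fintype A] (ρ : Matrix A A ℂ) : Prop := ρ.PosSemidef ∧ ρ.trace = 1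

/-- Separable: a finite convex combination of product states. -/
def Separable {A B : Type} [Fintype A] [Fintype B] (ρ : Matrix (A × B) (A × B) ℂ) : Prop :=
  ∃ (m : ℕ) (p : Fin m → ℝ) (α : Fin m → Matrix A A ℂ) (β : Fin m → Matrix B B ℂ),
    (∀ i, 0 ≤ p i) ∧ ∑ i, p i = 1 ∧ (∀ i, IsState (α i) ∧ IsState (β i)) ∧
      ρ = ∑ i, p i • (α i ⊗ₖ β i)

/-- The trace norm `tr √(X* X)`. -/
noncomputable def trNorm {A : Type} [Fintype A] [DecidableEq A] (X : Matrix A A ℂ) : ℝ :=
  (CFC.sqrt (Xᴴ * X)).trace.re

/-- The operator `|ψ⟩⟨ψ|`. -/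
def ketBra {A : Type} (ψ : A → ℂ) : Matrix A A ℂ := vecMulVec ψ (star ψ)

/-- `ψ` is a purification of `ρ`: the trace of `|ψ⟩⟨ψ|` over the system `E` is `ρ`. -/
def IsPurification {S E : Type} [Fintype E] (ψ : S × E → ℂ) (ρ : Matrix S S ℂ) : Prop :=
  ∀ p q, ρ p q = ∑ e, ketBra ψ (p, e) (q, e)

/-- The vector `ψ^{⊗ n}` of the system `(A^n B^n) E^n`. -/
def tensorPow {A B E : Type} (n : ℕ) (ψ : (A × B) × E → ℂ) :
    ((Fin n → A) × (Fin n → B)) × (Fin n → E) → ℂ :=
  fun p => ∏ i, ψ ((p.1.1 i, p.1.2 i), p.2 i)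

/-- Linear maps from the operators on `A` to the operators on `A'`. -/
abbrev Op (A A' : Type) : Type := Matrix A A ℂ →ₗ[ℂ] Matrix A' A' ℂ

/-- Complete positivity: `Φ ⊗ id` on `A ⊗ ℂ^m` preserves positivity, for every `m`. -/
def IsCP {A A' : Type} (Φ : Op A A') : Prop :=
  ∀ (m : ℕ) (X : Matrix (A × Fin m) (A × Fin m) ℂ), X.PosSemidef →
    PosSemidef (of fun p q : A' × Fin m => Φ (of fun a a' => X (a, p.2) (a', q.2)) p.1 q.1)

/-- A quantum instrument from the system `A` to the system `A'` with classical outcomes in `M`: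
completely positive maps whose sum preserves the trace. (`A'` is arbitrary: ancillas and private
randomness are added, kept or discarded by such maps. For `M = Unit`: a quantum channel.) -/
structure Instrument (A A' M : Type) [Fintype A] [Fintype A'] [Fintype M] : Type where
  /-- the operation for the outcome `m` -/
  op : M → Op A A'
  /-- complete positivity -/
  cp : ∀ m, IsCP (op m)
  /-- the sum of the operations is trace preserving -/
  tp : ∀ X, ∑ m, (op m X).trace = X.trace

/-- `Φ ⊗ id_B ⊗ id_E`: Alice acts. -/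
def onA {A A' B E : Type} (Φ : Op A A') (X : Matrix ((A × B) × E) ((A × B) × E) ℂ) :
    Matrix ((A' × B) × E) ((A' × B) × E) ℂ :=
  of fun p q => Φ (of fun a a' => X ((a, p.1.2), p.2) ((a', q.1.2), q.2)) p.1.1 q.1.1

/-- `id_A ⊗ Φ ⊗ id_E`: Bob acts. -/
def onB {A B B' E : Type} (Φ : Op B B') (X : Matrix ((A × B) × E) ((A × B) × E) ℂ) :
    Matrix ((A × B') × E) ((A × B') × E) ℂ :=
  of fun p q => Φ (of fun b b' => X ((p.1.1, b), p.2) ((q.1.1, b'), q.2)) p.1.2 q.1.2

/-- Protocols with key registers `K`; the last two arguments are the present local systems.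
* `alice`: Alice applies a local instrument, announces its outcome `m` publicly (`M = Unit`: no
  message) and keeps a system `A'`; the protocol goes on with `next m`. `bob`: the same for Bob.
* `output`: local channels produce the classical (diagonal) registers `K_A` and `K_B`. -/
inductive Protocol (K : Type) [Fintype K] : Type → Type → Type 1
  | output {A B : Type} [Fintype A] [Fintype B] (ΦA : Instrument A K Unit)
      (ΦB : Instrument B K Unit) (hA : ∀ X, (ΦA.op () X).IsDiag) (hB : ∀ X, (ΦB.op () X).IsDiag) :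
      Protocol K A B
  | alice {A B : Type} (A' M : Type) [Fintype A] [Fintype A'] [Fintype M]
      (Φ : Instrument A A' M) (next : M → Protocol K A' B) : Protocol K A B
  | bob {A B : Type} (B' M : Type) [Fintype B] [Fintype B'] [Fintype M]
      (Φ : Instrument B B' M) (next : M → Protocol K A B') : Protocol K A B

namespace Protocol

variable {K : Type} [Fintype K]

/-- The complete public transcripts: the sequences of all announced messages. -/
def Transcript : {A B : Type} → Protocol K A B → Type
  | _, _, @output _ _ _ _ _ _ _ _ _ _ => Unit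
  | _, _, @alice _ _ _ _ _ M _ _ _ _ next => (m : M) × (next m).Transcript
  | _, _, @bob _ _ _ _ _ M _ _ _ _ next => (m : M) × (next m).Transcript

/-- There are finitely many transcripts. -/
instance fintypeTranscript : {A B : Type} → (π : Protocol K A B) → Fintype π.Transcript
  | _, _, @output _ _ _ _ _ _ _ _ _ _ => (inferInstance : Fintype Unit)
  | _, _, @alice _ _ _ _ _ _ _ _ iM _ next =>
      @Sigma.instFintype _ _ (fun m => fintypeTranscript (next m)) iM
  | _, _, @bob _ _ _ _ _ _ _ _ iM _ next =>
      @Sigma.instFintype _ _ (fun m => fintypeTranscript (next m)) iM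

noncomputable instance decEqTranscript {A B : Type} (π : Protocol K A B) :
    DecidableEq π.Transcript := Classical.decEq _

/-- The protocol is run on the state `X` of `A B E`: the final operator on `K_A K_B E` of the branch
with the transcript `t` (its trace is the probability of `t`). -/
def run {E : Type} : {A B : Type} → (π : Protocol K A B) →
    Matrix ((A × B) × E) ((A × B) × E) ℂ → π.Transcript → Matrix ((K × K) × E) ((K × K) × E) ℂ
  | _, _, @output _ _ _ _ _ _ ΦA ΦB _ _, X, _ => onB (ΦB.op ()) (onA (ΦA.op ()) X)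
  | _, _, @alice _ _ _ _ _ _ _ _ _ Φ next, X, t => (next t.1).run (onA (Φ.op t.1) X) t.2
  | _, _, @bob _ _ _ _ _ _ _ _ _ Φ next, X, t => (next t.1).run (onB (Φ.op t.1) X) t.2

/-- The final state `τ = ∑_t run(t) ⊗ |t⟩⟨t|` of `K_A K_B E'`, where Eve's final system `E'`
consists of `E` and a copy of the transcript. -/
noncomputable def finalState {A B E : Type} (π : Protocol K A B)
    (X : Matrix ((A × B) × E) ((A × B) × E) ℂ) :
    Matrix ((K × K) × (E × π.Transcript)) ((K × K) × (E × π.Transcript)) ℂ :=
  of fun p q => if p.2.2 = q.2.2 then π.run X p.2.2 (p.1, p.2.1) (q.1, q.2.1) else 0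

end Protocol

/-- The ideal key `2^{-ℓ} ∑_z |z,z⟩⟨z,z|`. -/
noncomputable def idealKey (ℓ : ℕ) :
    Matrix ((Fin ℓ → Bool) × (Fin ℓ → Bool)) ((Fin ℓ → Bool) × (Fin ℓ → Bool)) ℂ :=
  ((2 : ℂ) ^ ℓ)⁻¹ • ∑ z, single (z, z) (z, z) 1

/-- The protocol `π`, run on the state `X`, has error `ε`: for some state `σ` of `E'`,
`‖τ - idealKey ⊗ σ‖₁ ≤ ε`. -/
def HasError {ℓ : ℕ} {A B E : Type} [Fintype E] [DecidableEq E]
    (π : Protocol (Fin ℓ → Bool) A B) (X : Matrix ((A × B) × E) ((A × B) × E) ℂ) (ε : ℝ) : Prop :=
  ∃ σ : Matrix (E × π.Transcript) (E × π.Transcript) ℂ, IsState σ ∧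
    trNorm (π.finalState X - idealKey ℓ ⊗ₖ σ) ≤ ε

/-- The distillable secret key `K_D`, Eve holding the system `E` of the purification `ψ`: the
supremum of `liminf ℓ n / n` over sequences of protocols on `n` copies with errors tending to
`0`. -/
noncomputable def secretKey {A B E : Type} [Fintype E] [DecidableEq E] (ψ : (A × B) × E → ℂ) :
    EReal :=
  sSup {r : EReal | ∃ (ℓ : ℕ → ℕ) (ε : ℕ → ℝ)
    (π : ∀ n, Protocol (Fin (ℓ n) → Bool) (Fin n → A) (Fin n → B)),
    (∀ n, HasError (π n) (ketBra (tensorPow n ψ)) (ε n)) ∧ Tendsto ε atTop (𝓝 0) ∧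
      r = liminf (fun n => (((ℓ n : ℝ) / (n : ℝ) : ℝ) : EReal)) atTop}

end Vale.Agent.P372W
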