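import Vale.Agent.P372W90.Kraus

/-! Protocols in the Schrödinger picture and their effects in the Heisenberg picture. -/

open Matrix Kronecker
open scoped ComplexOrder MatrixOrder

namespace Vale.Agent.P372W

open Vale.Agent.P372

variable {A A' B B' E R K : Type}

/-- `tr_{AB} [(M ⊗ N ⊗ 1) X]` -/
noncomputable def blk [Fintype A] [Fintype B] (M : Matrix A A ℂ) (N : Matrix B B ℂ)
    (X : Matrix ((A × B) × E) ((A × B) × E) ℂ) : Matrix E E ℂ :=
  of fun e e' => ∑ p : A × B, ∑ q : A × B, M q.1 p.1 * N q.2 p.2 * X (p, e) (q, e')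

theorem blk_eq_A [Fintype A] [Fintype B] (M : Matrix A A ℂ) (N : Matrix B B ℂ)
    (X : Matrix ((A × B) × E) ((A × B) × E) ℂ) (e e' : E) :
    blk M N X e e' = ∑ b, ∑ b', N b' b *
      (M * of fun a a' => X ((a, b), e) ((a', b'), e')).trace := by
  simp only [blk, of_apply, Fintype.sum_prod_type_right, Matrix.trace, diag, mul_apply,
    Finset.mul_sum]
  refine Finset.sum_congr rfl fun b _ => ?_
  rw [Finset.sum_comm]
  refine Finset.sum_congr rfl fun b' _ => ?_
  rw [Finset.sum_comm]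
  exact Finset.sum_congr rfl fun a _ => Finset.sum_congr rfl fun a' _ => by ring

theorem blk_eq_B [Fintype A] [Fintype B] (M : Matrix A A ℂ) (N : Matrix B B ℂ)
    (X : Matrix ((A × B) × E) ((A × B) × E) ℂ) (e e' : E) :
    blk M N X e e' = ∑ a, ∑ a', M a' a *
      (N * of fun b b' => X ((a, b), e) ((a', b'), e')).trace := by
  simp only [blk, of_apply, Fintype.sum_prod_type, Matrix.trace, diag, mul_apply,
    Finset.mul_sum]
  refine Finset.sum_congr rfl fun a _ => ?_
  rw [Finset.sum_comm]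
  refine Finset.sum_congr rfl fun a' _ => ?_
  rw [Finset.sum_comm]
  exact Finset.sum_congr rfl fun b _ => Finset.sum_congr rfl fun b' _ => by ring

theorem blk_onA [Fintype A] [Fintype A'] [Fintype B] [Fintype R] (V : R → Matrix A' A ℂ)
    (M : Matrix A' A' ℂ) (N : Matrix B B ℂ) (X : Matrix ((A × B) × E) ((A × B) × E) ℂ) :
    blk M N (onA (kraus V) X) = blk (∑ r, (V r)ᴴ * M * V r) N X := by
  ext e e'
  rw [blk_eq_A, blk_eq_A]
  refine Finset.sum_congr rfl fun b _ => Finset.sum_congr rfl fun b' _ => ?_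
  rw [← trace_mul_kraus]
  rfl

theorem blk_onB [Fintype A] [Fintype B] [Fintype B'] [Fintype R] (V : R → Matrix B' B ℂ)
    (M : Matrix A A ℂ) (N : Matrix B' B' ℂ) (X : Matrix ((A × B) × E) ((A × B) × E) ℂ) :
    blk M N (onB (kraus V) X) = blk M (∑ r, (V r)ᴴ * N * V r) X := by
  ext e e'
  rw [blk_eq_B, blk_eq_B]
  refine Finset.sum_congr rfl fun a _ => Finset.sum_congr rfl fun a' _ => ?_
  rw [← trace_mul_kraus]
  rfl

theorem blk_single [Fintype A] [DecidableEq A] [Fintype B] [DecidableEq B] (a : A) (b : B)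
    (X : Matrix ((A × B) × E) ((A × B) × E) ℂ) (e e' : E) :
    blk (single a a 1) (single b b 1) X e e' = X ((a, b), e) ((a, b), e') := by
  simp [blk, Fintype.sum_prod_type, single_apply, ite_and]

theorem povm_of_kraus [Fintype A] [DecidableEq A] [Fintype K] [DecidableEq K] [Fintype R]
    {V : R → Matrix K A ℂ} (hV : ∑ r, (V r)ᴴ * V r = 1) :
    (∀ k, (∑ r, (V r)ᴴ * (single k k 1 : Matrix K K ℂ) * V r).PosSemidef) ∧
      ∑ k, ∑ r, (V r)ᴴ * (single k k 1 : Matrix K K ℂ) * V r = 1 := by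
  refine ⟨fun k => posSemidef_sum _ fun r _ => PosSemidef.conjTranspose_mul_mul_same ?_ _, ?_⟩
  · rw [← diagonal_single, posSemidef_diagonal_iff]
    intro i
    rw [Pi.single_apply]
    split_ifs <;> simp
  · rw [Finset.sum_comm, ← hV]
    refine Finset.sum_congr rfl fun r _ => ?_
    rw [← Matrix.sum_mul, ← Matrix.mul_sum, sum_single_one, Matrix.mul_one]

/-- Every protocol has effects in the Heisenberg picture. -/
theorem Protocol.exists_locc [Fintype K] [DecidableEq K] {A B : Type} (π : Protocol K A B) :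
    ∀ [Fintype A] [Fintype B], ∃ (f : π.Transcript → K → Matrix A A ℂ)
      (g : π.Transcript → K → Matrix B B ℂ), LOCC K A B π.Transcript f g ∧
      ∀ (E : Type) (X : Matrix ((A × B) × E) ((A × B) × E) ℂ) (t : π.Transcript) (k l : K)
        (e e' : E), π.run X t ((k, l), e) ((k, l), e') = blk (f t k) (g t l) X e e' := by
  classical
  induction π with
  | @output A B iA iB ΦA ΦB hA hB =>
    intro jA jB
    obtain rfl : iA = jA := Subsingleton.elim _ _
    obtain rfl : iB = jB := Subsingleton.elim _ _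
    obtain ⟨V, hV, hV1⟩ := ΦA.exists_kraus
    obtain ⟨W, hW, hW1⟩ := ΦB.exists_kraus
    rw [Fintype.sum_unique] at hV1 hW1
    obtain ⟨p1, p2⟩ := povm_of_kraus hV1
    obtain ⟨q1, q2⟩ := povm_of_kraus hW1
    refine ⟨_, _, LOCC.output _ _ p1 p2 q1 q2, fun E X t k l e e' => ?_⟩
    rw [← blk_onA, ← blk_onB, blk_single, ← hV, ← hW]
    rfl
  | @alice A B A' M iA iA' iM Φ next ih =>
    intro jA jB
    obtain rfl : iA = jA := Subsingleton.elim _ _
    obtain ⟨V, hV, hV1⟩ := Φ.exists_kraus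
    choose f g h1 h2 using fun m => ih m
    refine ⟨_, _, LOCC.alice A' M _ V hV1 (fun m => (next m).Transcript) f g h1,
      fun E X t k l e e' => ?_⟩
    rw [← blk_onA, ← hV]
    exact h2 t.1 E _ t.2 k l e e'
  | @bob A B B' M iB iB' iM Φ next ih =>
    intro jA jB
    obtain rfl : iB = jB := Subsingleton.elim _ _
    obtain ⟨V, hV, hV1⟩ := Φ.exists_kraus
    choose f g h1 h2 using fun m => ih m
    refine ⟨_, _, LOCC.bob B' M _ V hV1 (fun m => (next m).Transcript) f g h1,
      fun E X t k l e e' => ?_⟩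
    rw [← blk_onB, ← hV]
    exact h2 t.1 E _ t.2 k l e e'

/-- Conversely, effects of the Heisenberg picture come from a protocol. -/
theorem exists_protocol [Fintype K] [DecidableEq K] {A B T : Type} {f : T → K → Matrix A A ℂ}
    {g : T → K → Matrix B B ℂ} (h : LOCC K A B T f g) :
    ∀ [Fintype A] [Fintype B], ∃ (π : Protocol K A B) (u : π.Transcript ≃ T),
      ∀ (E : Type) (X : Matrix ((A × B) × E) ((A × B) × E) ℂ) (t : π.Transcript)
        (p q : (K × K) × E), π.run X t p q =
          if p.1 = q.1 then blk (f (u t) p.1.1) (g (u t) p.1.2) X p.2 q.2 else 0 := by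
  induction h with
  | @output A B iA iB P Q hP hP1 hQ hQ1 =>
    intro jA jB
    obtain ⟨ΦA, hA⟩ := exists_measure P hP hP1
    obtain ⟨ΦB, hB⟩ := exists_measure Q hQ hQ1
    have hA' : ∀ X, (ΦA.op () X).IsDiag := fun X => by rw [hA]; exact isDiag_diagonal _
    have hB' : ∀ X, (ΦB.op () X).IsDiag := fun X => by rw [hB]; exact isDiag_diagonal _
    refine ⟨.output ΦA ΦB hA' hB', Equiv.refl Unit, fun E X t p q => ?_⟩
    obtain ⟨⟨k, l⟩, e⟩ := p
    obtain ⟨⟨k', l'⟩, e'⟩ := q
    show onB (ΦB.op ()) (onA (ΦA.op ()) X) _ _ = _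
    rw [blk_eq_A]
    simp only [onB, onA, of_apply, hA, hB, diagonal_apply, Prod.mk.injEq]
    by_cases h1 : k = k' <;> by_cases h2 : l = l'
    · subst h1 h2
      rw [if_pos rfl, if_pos ⟨rfl, rfl⟩, Finset.sum_comm]
      simp only [Matrix.trace, diag, mul_apply, of_apply, if_true]
    · simp [h2]
    · simp [h1, Matrix.trace, mul_apply]
    · simp [h2]
  | @alice A B iA A' M R iA' iM iR V hV T f g h ih =>
    intro jA jB
    choose π u hπ using fun m => ih m
    refine ⟨.alice A' M (.ofKraus V hV) π, Equiv.sigmaCongrRight u, fun E X t p q => ?_⟩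
    refine (hπ t.1 E (onA (kraus (V t.1)) X) t.2 p q).trans ?_
    rw [blk_onA]
    rfl
  | @bob A B iB B' M R iB' iM iR V hV T f g h ih =>
    intro jA jB
    choose π u hπ using fun m => ih m
    refine ⟨.bob B' M (.ofKraus V hV) π, Equiv.sigmaCongrRight u, fun E X t p q => ?_⟩
    refine (hπ t.1 E (onB (kraus (V t.1)) X) t.2 p q).trans ?_
    rw [blk_onB]
    rfl

end Vale.Agent.P372W
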