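import Vale.Agent.P372W90.Defs
import Vale.Agent.P372.FULL.Main

/-! The theorem of Choi and Kraus: completely positive maps are the maps `X ↦ ∑ V X V*`. -/

open Matrix Kronecker
open scoped ComplexOrder MatrixOrder

namespace Vale.Agent.P372W

open Vale.Agent.P372

variable {A A' R M : Type}

/-- The map with Kraus operators `V r`. -/
noncomputable def kraus [Fintype A] [Fintype R] (V : R → Matrix A' A ℂ) : Op A A' where
  toFun X := ∑ r, V r * X * (V r)ᴴ
  map_add' X Y := by simp only [Matrix.mul_add, Matrix.add_mul, Finset.sum_add_distrib]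
  map_smul' c X := by
    simp only [Matrix.mul_smul, Matrix.smul_mul, RingHom.id_apply, Finset.smul_sum]

theorem kraus_apply [Fintype A] [Fintype R] (V : R → Matrix A' A ℂ) (X : Matrix A A ℂ) :
    kraus V X = ∑ r, V r * X * (V r)ᴴ := rfl

theorem isCP_kraus [Fintype A] [Fintype A'] [Fintype R] (V : R → Matrix A' A ℂ) :
    IsCP (kraus V) := by
  intro m X hX
  have e : (of fun p q : A' × Fin m => kraus V (of fun a a' => X (a, p.2) (a', q.2)) p.1 q.1) =
      ∑ r, (V r ⊗ₖ (1 : Matrix (Fin m) (Fin m) ℂ)) * X *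
        (V r ⊗ₖ (1 : Matrix (Fin m) (Fin m) ℂ))ᴴ := by
    ext p q
    simp [kraus_apply, Matrix.sum_apply, mul_apply, Fintype.sum_prod_type, one_apply,
      apply_ite (starRingEnd ℂ)]
  rw [e]
  exact posSemidef_sum _ fun r _ => hX.mul_mul_conjTranspose_same _

theorem IsCP.exists_kraus [Fintype A] [Fintype A'] {Φ : Op A A'} (h : IsCP Φ) :
    ∃ V : A' × Fin (Fintype.card A) → Matrix A' A ℂ, Φ = kraus V := by
  classical
  let e : A ≃ Fin (Fintype.card A) := Fintype.equivFin A
  let ω : A × Fin (Fintype.card A) → ℂ := fun p => if e p.1 = p.2 then 1 else 0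
  obtain ⟨P, hP, hPP⟩ := exists_sqrt (h _ _ (posSemidef_vecMulVec_self_star ω))
  have hC : ∀ (a b : A) (x y : A'), Φ (single a b 1) x y =
      ∑ r, P (x, e a) r * star (P (y, e b) r) := fun a b x y => by
    have h1 := congrFun (congrFun hPP (x, e a)) (y, e b)
    rw [mul_apply, of_apply] at h1
    have h2 : (of fun a₁ a₂ => vecMulVec ω (star ω) (a₁, e a) (a₂, e b)) = single a b 1 := by
      ext a₁ a₂
      simp only [of_apply, vecMulVec_apply, ω, Pi.star_apply, e.apply_eq_iff_eq, single_apply,
        @eq_comm _ a a₁, @eq_comm _ b a₂]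
      by_cases h₁ : a₁ = a <;> by_cases h₂ : a₂ = b <;> simp [h₁, h₂]
    simp only [h2] at h1
    rw [← h1]
    exact Finset.sum_congr rfl fun r _ => by rw [hP.1.apply]
  refine ⟨fun r => of fun x a => P (x, e a) r, LinearMap.ext fun X => ?_⟩
  ext x y
  have hX : X = ∑ a, ∑ b, X a b • single a b (1 : ℂ) := by
    simp only [smul_single, smul_eq_mul, mul_one]
    exact matrix_eq_sum_single X
  conv_lhs => rw [hX]
  simp only [map_sum, map_smul, Matrix.sum_apply, Matrix.smul_apply, hC, kraus_apply, mul_apply,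
    of_apply, conjTranspose_apply, smul_eq_mul, Finset.mul_sum, Finset.sum_mul]
  rw [Finset.sum_comm]
  conv_rhs => rw [Finset.sum_comm]
  refine Finset.sum_congr rfl fun b _ => ?_
  rw [Finset.sum_comm]
  exact Finset.sum_congr rfl fun r _ => Finset.sum_congr rfl fun a _ => by ring

theorem trace_mul_kraus [Fintype A] [Fintype A'] [Fintype R] (V : R → Matrix A' A ℂ)
    (N : Matrix A' A' ℂ) (X : Matrix A A ℂ) :
    (N * kraus V X).trace = ((∑ r, (V r)ᴴ * N * V r) * X).trace := by
  rw [kraus_apply, Finset.mul_sum, Finset.sum_mul, trace_sum, trace_sum]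
  refine Finset.sum_congr rfl fun r _ => ?_
  rw [← Matrix.mul_assoc, trace_mul_comm]
  simp only [Matrix.mul_assoc]

theorem trace_kraus [Fintype A] [Fintype A'] [Fintype R] (V : R → Matrix A' A ℂ)
    (X : Matrix A A ℂ) : (kraus V X).trace = ((∑ r, (V r)ᴴ * V r) * X).trace := by
  classical
  have := trace_mul_kraus V 1 X
  simpa only [Matrix.one_mul, Matrix.mul_one] using this

/-- Every instrument has Kraus operators. -/
theorem Instrument.exists_kraus [Fintype A] [DecidableEq A] [Fintype A'] [Fintype M]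
    (Φ : Instrument A A' M) : ∃ V : M → A' × Fin (Fintype.card A) → Matrix A' A ℂ,
      (∀ m, Φ.op m = kraus (V m)) ∧ ∑ m, ∑ r, (V m r)ᴴ * V m r = 1 := by
  choose V hV using fun m => (Φ.cp m).exists_kraus
  refine ⟨V, hV, ext_iff_trace_mul_right.2 fun X => ?_⟩
  rw [Matrix.one_mul, ← Φ.tp X, Finset.sum_mul, trace_sum]
  exact Finset.sum_congr rfl fun m _ => by rw [hV, trace_kraus]

/-- The instrument with given Kraus operators. -/
noncomputable def Instrument.ofKraus [Fintype A] [DecidableEq A] [Fintype A'] [Fintype M]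
    [Fintype R] (V : M → R → Matrix A' A ℂ) (hV : ∑ m, ∑ r, (V m r)ᴴ * V m r = 1) :
    Instrument A A' M where
  op m := kraus (V m)
  cp m := isCP_kraus _
  tp X := by
    simp only [trace_kraus]
    rw [← trace_sum, ← Finset.sum_mul, hV, Matrix.one_mul]

/-- A POVM is measured by a channel with classical output. -/
theorem exists_measure {K : Type} [Fintype K] [DecidableEq K] [Fintype A] [DecidableEq A]
    (P : K → Matrix A A ℂ) (hP : ∀ k, (P k).PosSemidef) (hP1 : ∑ k, P k = 1) :
    ∃ Φ : Instrument A K Unit, ∀ X, Φ.op () X = diagonal fun k => (P k * X).trace := by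
  choose S hS hSS using fun k => exists_sqrt (hP k)
  let V : K × A → Matrix K A ℂ := fun r => of fun k a => if k = r.1 then S r.1 r.2 a else 0
  have h1 : ∀ X, kraus V X = diagonal fun k => (P k * X).trace := fun X => by
    ext k l
    have h2 : (P k * X).trace = (S k * X * (S k)ᴴ).trace := by
      rw [(hS k).1.eq, trace_mul_comm (S k * X), ← Matrix.mul_assoc, hSS]
    by_cases h : k = l
    · subst h
      rw [diagonal_apply_eq, h2]
      simp [kraus_apply, Matrix.sum_apply, mul_apply, Fintype.sum_prod_type, V, Matrix.trace,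
        apply_ite (starRingEnd ℂ)]
    · rw [diagonal_apply_ne _ h, kraus_apply, Matrix.sum_apply]
      refine Finset.sum_eq_zero fun r _ => ?_
      by_cases hk : k = r.1
      · have hl : l ≠ r.1 := fun hl => h (hk.trans hl.symm)
        simp [mul_apply, V, hl]
      · simp [mul_apply, V, hk]
  refine ⟨⟨fun _ => kraus V, fun _ => isCP_kraus _, fun X => ?_⟩, h1⟩
  rw [Fintype.sum_unique, h1, trace_diagonal, ← trace_sum, ← Finset.sum_mul, hP1, Matrix.one_mul]

end Vale.Agent.P372W
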