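import Vale.Agent.P372W90.Norm

/-! The final state of a protocol is a state; the main theorem. -/

open Matrix Kronecker
open scoped ComplexOrder MatrixOrder

namespace Vale.Agent.P372W

open Vale.Agent.P372

variable {A A' B B' E M K : Type} [Fintype E]

theorem psd_onA [Fintype A] [Fintype A'] [Fintype B] {Φ : Op A A'} (h : IsCP Φ)
    {X : Matrix ((A × B) × E) ((A × B) × E) ℂ} (hX : X.PosSemidef) : (onA Φ X).PosSemidef := by
  classical
  obtain ⟨V, rfl⟩ := h.exists_kraus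
  have e : onA (kraus V) X = ∑ r, ((V r ⊗ₖ (1 : Matrix B B ℂ)) ⊗ₖ (1 : Matrix E E ℂ)) * X *
      ((V r ⊗ₖ (1 : Matrix B B ℂ)) ⊗ₖ (1 : Matrix E E ℂ))ᴴ := by
    ext p q
    simp [onA, kraus_apply, Matrix.sum_apply, mul_apply, Fintype.sum_prod_type, one_apply,
      apply_ite (starRingEnd ℂ)]
  rw [e]
  exact posSemidef_sum _ fun r _ => hX.mul_mul_conjTranspose_same _

theorem psd_onB [Fintype A] [Fintype B] [Fintype B'] {Φ : Op B B'} (h : IsCP Φ)
    {X : Matrix ((A × B) × E) ((A × B) × E) ℂ} (hX : X.PosSemidef) : (onB Φ X).PosSemidef := by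
  classical
  obtain ⟨V, rfl⟩ := h.exists_kraus
  have e : onB (kraus V) X = ∑ r, (((1 : Matrix A A ℂ) ⊗ₖ V r) ⊗ₖ (1 : Matrix E E ℂ)) * X *
      (((1 : Matrix A A ℂ) ⊗ₖ V r) ⊗ₖ (1 : Matrix E E ℂ))ᴴ := by
    ext p q
    simp [onB, kraus_apply, Matrix.sum_apply, mul_apply, Fintype.sum_prod_type, one_apply,
      apply_ite (starRingEnd ℂ)]
  rw [e]
  exact posSemidef_sum _ fun r _ => hX.mul_mul_conjTranspose_same _

theorem trace_eq_A [Fintype A] [Fintype B] (Y : Matrix ((A × B) × E) ((A × B) × E) ℂ) :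
    Y.trace = ∑ e, ∑ b, (of fun a a' => Y ((a, b), e) ((a', b), e)).trace := by
  simp only [Matrix.trace, diag, Fintype.sum_prod_type_right, of_apply]

theorem trace_eq_B [Fintype A] [Fintype B] (Y : Matrix ((A × B) × E) ((A × B) × E) ℂ) :
    Y.trace = ∑ e, ∑ a, (of fun b b' => Y ((a, b), e) ((a, b'), e)).trace := by
  rw [Matrix.trace, Fintype.sum_prod_type_right]
  simp only [Matrix.trace, diag, Fintype.sum_prod_type, of_apply]

theorem trace_onA [Fintype A] [Fintype A'] [Fintype B] [Fintype M] (Φ : Instrument A A' M)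
    (X : Matrix ((A × B) × E) ((A × B) × E) ℂ) : ∑ m, (onA (Φ.op m) X).trace = X.trace := by
  have h : ∀ m, (onA (Φ.op m) X).trace = ∑ e, ∑ b,
      (Φ.op m (of fun a a' => X ((a, b), e) ((a', b), e))).trace := fun m => trace_eq_A _
  rw [trace_eq_A X, Finset.sum_congr rfl fun m _ => h m, Finset.sum_comm]
  refine Finset.sum_congr rfl fun e _ => ?_
  rw [Finset.sum_comm]
  exact Finset.sum_congr rfl fun b _ => Φ.tp _

theorem trace_onB [Fintype A] [Fintype B] [Fintype B'] [Fintype M] (Φ : Instrument B B' M)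
    (X : Matrix ((A × B) × E) ((A × B) × E) ℂ) : ∑ m, (onB (Φ.op m) X).trace = X.trace := by
  have h : ∀ m, (onB (Φ.op m) X).trace = ∑ e, ∑ a,
      (Φ.op m (of fun b b' => X ((a, b), e) ((a, b'), e))).trace := fun m => trace_eq_B _
  rw [trace_eq_B X, Finset.sum_congr rfl fun m _ => h m, Finset.sum_comm]
  refine Finset.sum_congr rfl fun e _ => ?_
  rw [Finset.sum_comm]
  exact Finset.sum_congr rfl fun b _ => Φ.tp _

theorem Protocol.run_state [Fintype K] {A B : Type} (π : Protocol K A B) :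
    ∀ [Fintype A] [Fintype B] (X : Matrix ((A × B) × E) ((A × B) × E) ℂ), X.PosSemidef →
      (∀ t, (π.run X t).PosSemidef) ∧ ∑ t, (π.run X t).trace = X.trace := by
  induction π with
  | @output A B iA iB ΦA ΦB hA hB =>
    intro jA jB X hX
    obtain rfl : iA = jA := Subsingleton.elim _ _
    obtain rfl : iB = jB := Subsingleton.elim _ _
    refine ⟨fun t => psd_onB (ΦB.cp ()) (psd_onA (ΦA.cp ()) hX), ?_⟩
    have h1 := trace_onA ΦA X
    rw [Fintype.sum_unique] at h1
    exact (trace_onB ΦB _).trans h1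
  | @alice A B A' M iA iA' iM Φ next ih =>
    intro jA jB X hX
    obtain rfl : iA = jA := Subsingleton.elim _ _
    refine ⟨fun t => (ih t.1 _ (psd_onA (Φ.cp t.1) hX)).1 t.2, ?_⟩
    rw [← trace_onA Φ X]
    exact (Fintype.sum_sigma _).trans
      (Finset.sum_congr rfl fun m _ => (ih m _ (psd_onA (Φ.cp m) hX)).2)
  | @bob A B B' M iB iB' iM Φ next ih =>
    intro jA jB X hX
    obtain rfl : iB = jB := Subsingleton.elim _ _
    refine ⟨fun t => (ih t.1 _ (psd_onB (Φ.cp t.1) hX)).1 t.2, ?_⟩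
    rw [← trace_onB Φ X]
    exact (Fintype.sum_sigma _).trans
      (Finset.sum_congr rfl fun m _ => (ih m _ (psd_onB (Φ.cp m) hX)).2)

theorem isState_finalState [Fintype K] [Fintype A] [Fintype B] (π : Protocol K A B)
    (X : Matrix ((A × B) × E) ((A × B) × E) ℂ) (hX : IsState X) : IsState (π.finalState X) := by
  classical
  obtain ⟨h1, h2⟩ := π.run_state X hX.1
  have e : π.finalState X = (blockDiagonal (π.run X)).submatrix
      (Equiv.prodAssoc _ _ _).symm (Equiv.prodAssoc _ _ _).symm := by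
    ext p q
    simp only [Protocol.finalState, of_apply, submatrix_apply, blockDiagonal_apply]
    rfl
  rw [e]
  refine ⟨(psd_blockDiagonal h1).submatrix _, ?_⟩
  rw [FULL.lk_trace, trace_blockDiagonal, h2, hX.2]

theorem main :
    (∃ (a b : ℕ) (ρ : Matrix (Fin a × Fin b) (Fin a × Fin b) ℂ), IsState ρ ∧ ¬ Separable ρ ∧
      (∃ ψ : (Fin a × Fin b) × (Fin a × Fin b) → ℂ, IsPurification ψ ρ) ∧
      ∀ (E : Type) [Fintype E] [DecidableEq E] (ψ : (Fin a × Fin b) × E → ℂ),
        IsPurification ψ ρ → secretKey ψ = 0) ∧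
    (∀ (K A B E : Type) [Fintype K] [Fintype A] [Fintype B] [Fintype E] (π : Protocol K A B)
      (X : Matrix ((A × B) × E) ((A × B) × E) ℂ), IsState X → IsState (π.finalState X)) ∧
    ∃ ρ : Matrix (Fin 3 × Fin 3) (Fin 3 × Fin 3) ℂ, IsState ρ ∧
      ∀ (E : Type) [Fintype E] [DecidableEq E] (ψ : (Fin 3 × Fin 3) × E → ℂ),
        IsPurification ψ ρ → 0 < secretKey ψ := by
  refine ⟨?_, fun K A B E _ _ _ _ π X hX => isState_finalState π X hX, ?_⟩
  · obtain ⟨a, b, ρ, h1, h2, h3, h4⟩ := FULL.main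
    refine ⟨a, b, ρ, ⟨h1, h2⟩, fun h => h3 h.isSep, exists_purification h1, fun E _ _ ψ hψ => ?_⟩
    rw [secretKey_eq]
    exact h4 E _ ((isPurification_iff _ _).1 hψ)
  · obtain ⟨ρ, h1, -, h2, h3⟩ := keyPos_dims 3 3 (by omega) (by omega) (by omega)
    refine ⟨ρ, ⟨h1.posSemidef, h2⟩, fun E _ _ ψ hψ => ?_⟩
    rw [secretKey_eq]
    exact h3 E _ ((isPurification_iff _ _).1 hψ)

end Vale.Agent.P372W
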