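import Vale.Agent.P372W90.Heis

/-! The trace norm, pinching, and the two forms of the error criterion. -/

open Matrix Kronecker
open scoped ComplexOrder MatrixOrder

namespace Vale.Agent.P372W

open Vale.Agent.P372

variable {A B E I T : Type}

theorem trNorm_eq [Fintype E] [DecidableEq E] (X : Matrix E E ℂ) : trNorm X = traceNorm X := by
  have hX := posSemidef_conjTranspose_mul_self X
  have h1 : fcalc hX.1 (fun x => √x) * fcalc hX.1 (fun x => √x) = Xᴴ * X := by
    rw [fcalc_mul]
    exact fcalc_eq_self _ fun i => Real.mul_self_sqrt (hX.eigenvalues_nonneg i)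
  have h2 : (fcalc hX.1 fun x => √x).PosSemidef :=
    fcalc_posSemidef _ fun i => Real.sqrt_nonneg _
  rw [trNorm, CFC.sqrt_unique h1 h2.nonneg, fcalc, trace_mul_comm, ← Matrix.mul_assoc, eigU_mul',
    Matrix.one_mul, trace_diagonal, traceNorm]
  simp only [Complex.re_sum, Complex.ofReal_re]

theorem psd_blockDiagonal [Fintype E] [DecidableEq E] [Fintype I] [DecidableEq I]
    {D : I → Matrix E E ℂ} (h : ∀ i, (D i).PosSemidef) : (blockDiagonal D).PosSemidef := by
  choose S hS hSS using fun i => exists_sqrt (h i)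
  have : blockDiagonal D = (blockDiagonal S)ᴴ * blockDiagonal S := by
    rw [blockDiagonal_conjTranspose, ← blockDiagonal_mul]
    exact congrArg _ (funext fun i => by rw [(hS i).1.eq, hSS])
  rw [this]
  exact posSemidef_conjTranspose_mul_self _

/-- Pinching does not increase the trace norm. -/
theorem sum_blocks_le [Fintype E] [DecidableEq E] [Fintype I] [DecidableEq I]
    (X : Matrix (E × I) (E × I) ℂ) :
    ∑ i, traceNorm (X.submatrix (fun e => (e, i)) fun e => (e, i)) ≤ traceNorm X := by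
  choose W hW hWX using fun i => traceNorm_exists (X.submatrix (fun e => (e, i)) fun e => (e, i))
  have hC : Contr (blockDiagonal W) := by
    constructor
    · rw [blockDiagonal_conjTranspose, ← blockDiagonal_mul, ← blockDiagonal_one,
        ← blockDiagonal_sub]
      exact psd_blockDiagonal fun i => (hW i).1
    · rw [blockDiagonal_conjTranspose, ← blockDiagonal_mul, ← blockDiagonal_one,
        ← blockDiagonal_sub]
      exact psd_blockDiagonal fun i => (hW i).2
  have h1 : (blockDiagonal W * X).trace = ((∑ i, traceNorm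
      (X.submatrix (fun e => (e, i)) fun e => (e, i)) : ℝ) : ℂ) := by
    rw [Complex.ofReal_sum]
    simp only [← hWX]
    simp [Matrix.trace, mul_apply, Fintype.sum_prod_type_right, blockDiagonal_apply]
  have h2 := norm_trace_mul_le hC X
  rw [h1, Complex.norm_real] at h2
  exact (Real.le_norm_self _).trans h2

theorem blockDiagonal_le [Fintype E] [DecidableEq E] [Fintype I] [DecidableEq I]
    (D : I → Matrix E E ℂ) : traceNorm (blockDiagonal D) ≤ ∑ i, traceNorm (D i) := by
  have h1 : blockDiagonal D = ∑ i, D i ⊗ₖ (single i i 1 : Matrix I I ℂ) := by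
    ext p q
    simp only [blockDiagonal_apply, Matrix.sum_apply, kroneckerMap_apply, single_apply, ite_and]
    rw [Finset.sum_eq_single p.2 (fun i _ hi => by simp [hi]) (by simp)]
    simp
  rw [h1]
  refine (traceNorm_sum_le _ _).trans (Finset.sum_le_sum fun i _ => ?_)
  refine (Near.traceNorm_kronecker_le _ _).trans (le_of_eq ?_)
  have h2 : (single i i 1 : Matrix I I ℂ).PosSemidef := by
    rw [← diagonal_single, posSemidef_diagonal_iff]
    intro j
    rw [Pi.single_apply]
    split_ifs <;> simp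
  rw [traceNorm_of_posSemidef h2, trace_single_eq_same, Complex.one_re, mul_one]

/-- reordering of the final system -/
def reorder (K E T : Type) : E × (T × K × K) ≃ (K × K) × (E × T) where
  toFun p := (p.2.2, p.1, p.2.1)
  invFun q := (q.2.1, q.2.2, q.1)
  left_inv _ := rfl
  right_inv _ := rfl

theorem idealKey_apply (ℓ : ℕ) (p q : (Fin ℓ → Bool) × (Fin ℓ → Bool)) :
    idealKey ℓ p q =
      if p = q ∧ p.1 = p.2 then ((Fintype.card (Fin ℓ → Bool) : ℕ) : ℂ)⁻¹ else 0 := by
  obtain ⟨k, l⟩ := p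
  simp only [idealKey, Matrix.smul_apply, Matrix.sum_apply, single_apply, Prod.mk.injEq, ite_and]
  rw [Finset.sum_eq_single k (fun i _ hi => by simp [hi]) (by simp)]
  by_cases h : k = l
  · subst h
    simp
  · simp [h]

variable [Fintype A] [Fintype B] [Fintype E] [DecidableEq E] {ℓ : ℕ}

omit [Fintype E] [DecidableEq E] in
theorem blk_ketBra (M : Matrix A A ℂ) (N : Matrix B B ℂ) (ψ : (A × B) × E → ℂ) :
    blk M N (ketBra ψ) = eve (of fun p e => ψ (p, e)) M N := rfl

theorem HasError.keyError {π : Protocol (Fin ℓ → Bool) A B} {ψ : (A × B) × E → ℂ} {ε : ℝ}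
    (h : HasError π (ketBra ψ) ε) :
    ∃ (f : π.Transcript → (Fin ℓ → Bool) → Matrix A A ℂ)
      (g : π.Transcript → (Fin ℓ → Bool) → Matrix B B ℂ),
      LOCC (Fin ℓ → Bool) A B π.Transcript f g ∧ KeyError f g (of fun p e => ψ (p, e)) ε := by
  obtain ⟨f, g, h1, h2⟩ := π.exists_locc
  obtain ⟨σ, ⟨hσ, hσ1⟩, hε⟩ := h
  refine ⟨f, g, h1, fun t => σ.submatrix (fun e => (e, t)) fun e => (e, t),
    fun t => hσ.submatrix _, ?_, ?_⟩
  · rw [← hσ1]
    simp [Matrix.trace, Fintype.sum_prod_type_right]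
  · rw [trNorm_eq, ← FULL.lk_tn (reorder _ E π.Transcript)] at hε
    refine le_trans (le_of_eq ?_) ((sum_blocks_le _).trans hε)
    simp only [Fintype.sum_prod_type]
    refine Finset.sum_congr rfl fun t _ => Finset.sum_congr rfl fun k _ =>
      Finset.sum_congr rfl fun l _ => congrArg traceNorm ?_
    ext e e'
    simp only [submatrix_apply, reorder, Equiv.coe_fn_mk, Matrix.sub_apply, Protocol.finalState,
      of_apply, if_true, h2, blk_ketBra, kroneckerMap_apply, idealKey_apply, true_and]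
    by_cases hkl : k = l <;> simp [hkl]

theorem exists_hasError [Fintype T] {f : T → (Fin ℓ → Bool) → Matrix A A ℂ}
    {g : T → (Fin ℓ → Bool) → Matrix B B ℂ} (h : LOCC (Fin ℓ → Bool) A B T f g)
    {ψ : (A × B) × E → ℂ} {ε : ℝ} (hε : KeyError f g (of fun p e => ψ (p, e)) ε) :
    ∃ π : Protocol (Fin ℓ → Bool) A B, HasError π (ketBra ψ) ε := by
  obtain ⟨π, u, hπ⟩ := exists_protocol h
  obtain ⟨σ, hσ, hσ1, hε⟩ := hε
  refine ⟨π, blockDiagonal fun t => σ (u t), ⟨psd_blockDiagonal fun t => hσ _, ?_⟩, ?_⟩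
  · rw [trace_blockDiagonal, ← hσ1]
    exact u.sum_comp fun t => (σ t).trace
  · rw [trNorm_eq, ← FULL.lk_tn (reorder _ E π.Transcript)]
    let D : π.Transcript × (Fin ℓ → Bool) × (Fin ℓ → Bool) → Matrix E E ℂ := fun i =>
      eve (of fun p e => ψ (p, e)) (f (u i.1) i.2.1) (g (u i.1) i.2.2) -
        if i.2.1 = i.2.2 then ((Fintype.card (Fin ℓ → Bool) : ℂ)⁻¹) • σ (u i.1) else 0
    have h1 : (π.finalState (ketBra ψ) - idealKey ℓ ⊗ₖ blockDiagonal fun t => σ (u t)).submatrix
        (reorder _ E π.Transcript) (reorder _ E π.Transcript) = blockDiagonal D := by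
      ext ⟨e, t, κ⟩ ⟨e', t', κ'⟩
      simp only [submatrix_apply, reorder, Equiv.coe_fn_mk, Matrix.sub_apply, Protocol.finalState,
        of_apply, hπ, blk_ketBra, kroneckerMap_apply, idealKey_apply, blockDiagonal_apply,
        Prod.mk.injEq, D]
      by_cases ht : t = t'
      · subst ht
        by_cases hκ : κ = κ'
        · subst hκ
          by_cases hkl : κ.1 = κ.2 <;> simp [hkl]
        · simp [hκ]
      · simp [ht]
    rw [h1]
    refine (blockDiagonal_le D).trans (le_trans (le_of_eq ?_) hε)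
    simp only [Fintype.sum_prod_type, D]
    exact u.sum_comp fun t => ∑ k, ∑ l, traceNorm (eve (of fun p e => ψ (p, e)) (f t k) (g t l) -
      if k = l then ((Fintype.card (Fin ℓ → Bool) : ℂ)⁻¹) • σ t else 0)

/-- The distillable key in the Schrödinger picture is that of the Heisenberg picture. -/
theorem secretKey_eq (ψ : (A × B) × E → ℂ) :
    secretKey ψ = distillableKey (of fun p e => ψ (p, e)) := by
  refine congrArg sSup (Set.ext fun r => ⟨?_, ?_⟩)
  · rintro ⟨ℓ, ε, π, h1, h2, h3⟩
    exact ⟨ℓ, ε, fun n => ⟨_, inferInstance, (h1 n).keyError⟩, h2, h3⟩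
  · rintro ⟨ℓ, ε, h1, h2, h3⟩
    have h4 : ∀ n, ∃ π : Protocol (Fin (ℓ n) → Bool) (Fin n → A) (Fin n → B),
        HasError π (ketBra (tensorPow n ψ)) (ε n) := fun n => by
      obtain ⟨T, _, f, g, p1, p2⟩ := h1 n
      exact exists_hasError p1 p2
    choose π hπ using h4
    exact ⟨ℓ, ε, π, hπ, h2, h3⟩

omit [DecidableEq E] in
theorem isPurification_iff {S : Type} [Fintype S] (ψ : S × E → ℂ) (ρ : Matrix S S ℂ) :
    IsPurification ψ ρ ↔ (of fun p e => ψ (p, e)) * (of fun p e => ψ (p, e))ᴴ = ρ :=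
  ⟨fun h => Matrix.ext fun p q => (h p q).symm, fun h p q => by rw [← h]; rfl⟩

theorem exists_purification {S : Type} [Fintype S] [DecidableEq S] {ρ : Matrix S S ℂ}
    (h : ρ.PosSemidef) : ∃ ψ : S × S → ℂ, IsPurification ψ ρ := by
  obtain ⟨P, hP, hPP⟩ := exists_sqrt h
  refine ⟨fun p => P p.1 p.2, (isPurification_iff _ _).2 ?_⟩
  show P * Pᴴ = ρ
  rw [hP.1.eq, hPP]

theorem Separable.isSep {ρ : Matrix (A × B) (A × B) ℂ} (h : Separable ρ) : IsSep ρ := by
  obtain ⟨m, p, α, β, h1, -, h2, rfl⟩ := h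
  refine ⟨m, fun i => p i • α i, β, fun i => (h2 i).1.1.smul (h1 i), fun i => (h2 i).2.1, ?_⟩
  exact Finset.sum_congr rfl fun i _ => (smul_kronecker _ _ _).symm

end Vale.Agent.P372W
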